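import Vale.Agent.P254.H910.ConeNonneg

/-!
P254 (helper910), block (E3): a cone contained in the simplicial cone `{L x ≥ 0}` whose Laplace
transform at `Lᵀ 1` is at least that of the simplicial cone is equal to it.
-/

open MeasureTheory Set Matrix Filter Topology

namespace Vale.Agent.P254.H910

open Vale.Agent.P248.NS (CC Z)

variable {N : ℕ}

/-- the simplicial cone `{L x ≥ 0}` -/
def orth (L : Matrix (Fin N) (Fin N) ℝ) : Set (Fin N → ℝ) := {x | ∀ i, 0 ≤ (L *ᵥ x) i}

/-- the exponential density of the standard orthant -/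
noncomputable def g0 (z : Fin N → ℝ) : ℝ := ∏ i, (Ici (0 : ℝ)).indicator (fun t => Real.exp (-t)) (z i)

theorem g0_int : Integrable (g0 : (Fin N → ℝ) → ℝ) ∧ ∫ z : Fin N → ℝ, g0 z = 1 := by
  have h1 : Integrable ((Ici (0 : ℝ)).indicator fun t => Real.exp (-t)) := by
    rw [integrable_indicator_iff measurableSet_Ici, integrableOn_Ici_iff_integrableOn_Ioi]
    exact integrableOn_exp_neg_Ioi 0
  have h2 : ∫ t, (Ici (0 : ℝ)).indicator (fun t => Real.exp (-t)) t = 1 := by
    rw [integral_indicator measurableSet_Ici, integral_Ici_eq_integral_Ioi,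
      integral_exp_neg_Ioi]
    simp
  constructor
  · exact Integrable.fintype_prod (f := fun _ : Fin N => (Ici (0 : ℝ)).indicator
      fun t => Real.exp (-t)) fun _ => h1
  · have := integral_fintype_prod_volume_eq_prod (𝕜 := ℝ) (fun _ : Fin N =>
      (Ici (0 : ℝ)).indicator fun t => Real.exp (-t))
    simp only [g0]
    rw [this]
    simp [h2]

theorem g0_eq (L : Matrix (Fin N) (Fin N) ℝ) (x : Fin N → ℝ) :
    g0 (L *ᵥ x) = (orth L).indicator (fun x => Real.exp (-((Lᵀ *ᵥ 1) ⬝ᵥ x))) x := by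
  unfold g0
  by_cases hx : x ∈ orth L
  · rw [indicator_of_mem hx]
    have : ∀ i, (Ici (0 : ℝ)).indicator (fun t => Real.exp (-t)) ((L *ᵥ x) i) =
        Real.exp (-((L *ᵥ x) i)) := fun i => indicator_of_mem (show (L *ᵥ x) i ∈ Ici 0 from hx i) _
    simp only [this]
    rw [← Real.exp_sum, Finset.sum_neg_distrib]
    congr 2
    rw [mulVec_transpose, ← dotProduct_mulVec]
    simp [dotProduct]
  · rw [indicator_of_notMem hx]
    have : ∃ i, ¬ 0 ≤ (L *ᵥ x) i := by
      by_contra hc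
      push Not at hc
      exact hx hc
    obtain ⟨i, hi⟩ := this
    refine Finset.prod_eq_zero (Finset.mem_univ i) ?_
    exact indicator_of_notMem (show (L *ᵥ x) i ∉ Ici 0 from hi) _

theorem measurableSet_orth (L : Matrix (Fin N) (Fin N) ℝ) : IsClosed (orth L) := by
  have : orth L = ⋂ i, {x | 0 ≤ (L *ᵥ x) i} := by
    ext x; simp [orth]
  rw [this]
  refine isClosed_iInter fun i => isClosed_le continuous_const ?_
  exact (continuous_apply i).comp (Continuous.matrix_mulVec continuous_const continuous_id)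

/-- the Laplace transform of the simplicial cone -/
theorem orth_int {L : Matrix (Fin N) (Fin N) ℝ} (hL : L.det ≠ 0) :
    IntegrableOn (fun x => Real.exp (-((Lᵀ *ᵥ 1) ⬝ᵥ x))) (orth L) ∧
      ∫ x in orth L, Real.exp (-((Lᵀ *ᵥ 1) ⬝ᵥ x)) = |L.det|⁻¹ := by
  have hmap := Real.map_matrix_volume_pi_eq_smul_volume_pi hL
  have hLc : Continuous (toLin' L) := (toLin' L).continuous_of_finiteDimensional
  have hcl := (measurableSet_orth L).measurableSet
  have hfun : (fun x => g0 ((toLin' L) x)) =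
      (orth L).indicator (fun x => Real.exp (-((Lᵀ *ᵥ 1) ⬝ᵥ x))) := by
    funext x
    rw [toLin'_apply]
    exact g0_eq L x
  have hI : Integrable (g0 : (Fin N → ℝ) → ℝ) (Measure.map (toLin' L) volume) := by
    rw [hmap]
    exact g0_int.1.smul_measure ENNReal.ofReal_ne_top
  constructor
  · rw [← integrable_indicator_iff hcl, ← hfun]
    exact (integrable_map_measure hI.aestronglyMeasurable hLc.measurable.aemeasurable).1 hI
  · rw [← integral_indicator hcl, ← hfun,
      ← integral_map hLc.measurable.aemeasurable hI.aestronglyMeasurable, hmap,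
      integral_smul_measure, g0_int.2, ENNReal.toReal_ofReal (abs_nonneg _), smul_eq_mul, mul_one,
      abs_inv]

theorem orth_open {L : Matrix (Fin N) (Fin N) ℝ} :
    {x : Fin N → ℝ | ∀ i, 0 < (L *ᵥ x) i} ⊆ orth L := fun _ hx i => (hx i).le

/-- **Block (E3), last step.** -/
theorem eq_orth {C : Set (Fin N → ℝ)} (hC : CC C) {L : Matrix (Fin N) (Fin N) ℝ} (hL : L.det ≠ 0)
    (hsub : C ⊆ orth L) (hZ : |L.det|⁻¹ ≤ Z C (Lᵀ *ᵥ 1)) : C = orth L := by
  refine Subset.antisymm hsub ?_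
  obtain ⟨hi, hv⟩ := orth_int hL
  have hCm : MeasurableSet C := hC.closed.measurableSet
  -- the open simplicial cone is contained in `C`
  have hopen : IsOpen {x : Fin N → ℝ | ∀ i, 0 < (L *ᵥ x) i} := by
    have : {x : Fin N → ℝ | ∀ i, 0 < (L *ᵥ x) i} = ⋂ i, {x | 0 < (L *ᵥ x) i} := by
      ext x; simp
    rw [this]
    refine isOpen_iInter_of_finite fun i => isOpen_lt continuous_const ?_
    exact (continuous_apply i).comp (Continuous.matrix_mulVec continuous_const continuous_id)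
  have hinner : {x : Fin N → ℝ | ∀ i, 0 < (L *ᵥ x) i} ⊆ C := by
    intro x hx
    by_contra hxC
    have hU : IsOpen ({x : Fin N → ℝ | ∀ i, 0 < (L *ᵥ x) i} ∩ Cᶜ) :=
      hopen.inter hC.closed.isOpen_compl
    have hpos : 0 < volume ({x : Fin N → ℝ | ∀ i, 0 < (L *ᵥ x) i} ∩ Cᶜ) :=
      hU.measure_pos volume ⟨x, hx, hxC⟩
    have hdiff : ∫ x in orth L \ C, Real.exp (-((Lᵀ *ᵥ 1) ⬝ᵥ x)) =
        (∫ x in orth L, Real.exp (-((Lᵀ *ᵥ 1) ⬝ᵥ x))) -
          ∫ x in C, Real.exp (-((Lᵀ *ᵥ 1) ⬝ᵥ x)) :=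
      setIntegral_sdiff hCm hi hsub
    have hle : ∫ x in orth L \ C, Real.exp (-((Lᵀ *ᵥ 1) ⬝ᵥ x)) ≤ 0 := by
      rw [hdiff, hv]
      unfold Z at hZ
      linarith
    have hi' : IntegrableOn (fun x => Real.exp (-((Lᵀ *ᵥ 1) ⬝ᵥ x))) (orth L \ C) :=
      hi.mono_set sdiff_subset
    have hpos2 : 0 < ∫ x in orth L \ C, Real.exp (-((Lᵀ *ᵥ 1) ⬝ᵥ x)) := by
      rw [setIntegral_pos_iff_support_of_nonneg_ae
        (Eventually.of_forall fun _ => (Real.exp_pos _).le) hi']
      refine hpos.trans_le (measure_mono ?_)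
      rintro z ⟨hz, hzC⟩
      exact ⟨(Real.exp_pos _).ne', orth_open hz, hzC⟩
    linarith
  -- closure
  intro x hx
  have hdet : IsUnit L.det := isUnit_iff_ne_zero.2 hL
  set v : Fin N → ℝ := L⁻¹ *ᵥ 1 with hv'
  have hLv : L *ᵥ v = 1 := by
    rw [hv', mulVec_mulVec, mul_nonsing_inv L hdet, one_mulVec]
  have hseq : ∀ n : ℕ, x + (1 / ((n : ℝ) + 1)) • v ∈ C := by
    intro n
    apply hinner
    intro i
    rw [mulVec_add, mulVec_smul, hLv]
    have h1 : (0 : ℝ) < 1 / ((n : ℝ) + 1) := by positivity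
    have h2 := hx i
    simp only [Pi.add_apply, Pi.smul_apply, Pi.one_apply, smul_eq_mul, mul_one]
    linarith
  have hlim : Tendsto (fun n : ℕ => x + (1 / ((n : ℝ) + 1)) • v) atTop (𝓝 x) := by
    have h1 : Tendsto (fun n : ℕ => (1 / ((n : ℝ) + 1))) atTop (𝓝 0) :=
      tendsto_one_div_add_atTop_nhds_zero_nat
    have h2 := (h1.smul_const v).const_add x
    simpa using h2
  exact hC.closed.mem_of_tendsto hlim (Eventually.of_forall hseq)

end Vale.Agent.P254.H910
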