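import Vale.Agent.P254.H910.Tail
import Mathlib.MeasureTheory.Integral.Layercake

/-!
P254 (helper910), block B2, part 2: a log-concave random variable whose first three moments are
`1, 2, 6` (those of the standard exponential law) is nonnegative.
-/

open MeasureTheory Set
open scoped ENNReal

namespace Vale.Agent.P254.H910

variable {α : Type*} [MeasurableSpace α]

/-- layer cake for powers -/
theorem layer (μ : Measure α) [IsFiniteMeasure μ] {f : α → ℝ} (hf0 : ∀ ω, 0 ≤ f ω)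
    (hfm : Measurable f) (k : ℕ) (hint : Integrable (fun ω => f ω ^ (k + 1)) μ) :
    IntegrableOn (fun t : ℝ => t ^ k * μ.real {ω | t < f ω}) (Ioi 0) ∧
      ∫ t in Ioi (0 : ℝ), t ^ k * μ.real {ω | t < f ω} = (∫ ω, f ω ^ (k + 1) ∂μ) / (k + 1) := by
  have hk : (0 : ℝ) < (k : ℝ) + 1 := by positivity
  have hL := lintegral_comp_eq_lintegral_meas_lt_mul (f := f) (g := fun t : ℝ => t ^ k) μ
    (Filter.Eventually.of_forall hf0) hfm.aemeasurable
    (fun t _ => (continuous_pow k).intervalIntegrable 0 t)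
    (by
      filter_upwards [ae_restrict_mem measurableSet_Ioi] with t ht
      exact pow_nonneg (le_of_lt ht) k)
  have hval : ∀ ω, (∫ t in (0 : ℝ)..f ω, t ^ k) = f ω ^ (k + 1) / (k + 1) := by
    intro ω
    rw [integral_pow]
    simp
  simp only [hval] at hL
  have hint' : Integrable (fun ω => f ω ^ (k + 1) / ((k : ℝ) + 1)) μ := hint.div_const _
  have hlhs : ∫⁻ ω, ENNReal.ofReal (f ω ^ (k + 1) / ((k : ℝ) + 1)) ∂μ =
      ENNReal.ofReal (∫ ω, f ω ^ (k + 1) / ((k : ℝ) + 1) ∂μ) :=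
    (ofReal_integral_eq_lintegral_ofReal hint'
      (Filter.Eventually.of_forall fun ω => by
        show 0 ≤ f ω ^ (k + 1) / ((k : ℝ) + 1)
        exact div_nonneg (pow_nonneg (hf0 ω) _) hk.le)).symm
  rw [hlhs] at hL
  set H : ℝ → ℝ≥0∞ := fun t => μ {ω | t < f ω} * ENNReal.ofReal (t ^ k) with hH
  have hanti : Antitone fun t : ℝ => μ {ω | t < f ω} := by
    intro a b hab
    exact measure_mono fun ω hω => lt_of_le_of_lt hab hω
  have hHm : Measurable H :=
    hanti.measurable.mul (ENNReal.measurable_ofReal.comp (measurable_id.pow_const k))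
  have hHt : ∀ t, 0 < t → (H t).toReal = t ^ k * μ.real {ω | t < f ω} := by
    intro t ht
    simp only [hH]
    rw [ENNReal.toReal_mul, ENNReal.toReal_ofReal (pow_nonneg ht.le k), mul_comm]
    rfl
  have hfin : ∫⁻ t in Ioi (0 : ℝ), H t ≠ ⊤ := by
    rw [← hL]; exact ENNReal.ofReal_ne_top
  have h1 : Integrable (fun t => (H t).toReal) (volume.restrict (Ioi (0 : ℝ))) :=
    integrable_toReal_of_lintegral_ne_top hHm.aemeasurable hfin
  have h2 : IntegrableOn (fun t => (H t).toReal) (Ioi 0) := h1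
  refine ⟨h2.congr_fun (fun t ht => hHt t ht) measurableSet_Ioi, ?_⟩
  have h3 : ∫ t in Ioi (0 : ℝ), (H t).toReal = (∫⁻ t in Ioi (0 : ℝ), H t).toReal := by
    refine integral_toReal hHm.aemeasurable ?_
    exact ae_lt_top hHm hfin
  rw [setIntegral_congr_fun measurableSet_Ioi (fun t ht => (hHt t ht).symm), h3, ← hL,
    ENNReal.toReal_ofReal, integral_div]
  exact integral_nonneg fun ω => div_nonneg (pow_nonneg (hf0 ω) _) hk.le

/-- A random variable with log-concave tail and moments `1, 2, 6` is nonnegative. -/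
theorem nonneg_of_moments (μ : Measure α) [IsFiniteMeasure μ] {Y : α → ℝ} (hY : Measurable Y)
    (hlc : ∀ x y, 0 < x → 0 < y → ∀ s t : ℝ, 0 < s → 0 < t → s + t = 1 →
      μ.real {ω | x < Y ω} ^ s * μ.real {ω | y < Y ω} ^ t ≤ μ.real {ω | s * x + t * y < Y ω})
    (h1i : Integrable Y μ) (h2i : Integrable (fun ω => Y ω ^ 2) μ)
    (h3i : Integrable (fun ω => Y ω ^ 3) μ) {Z : ℝ} (h1 : ∫ ω, Y ω ∂μ = Z)
    (h2 : ∫ ω, Y ω ^ 2 ∂μ = 2 * Z) (h3 : ∫ ω, Y ω ^ 3 ∂μ = 6 * Z) :
    ∀ᵐ ω ∂μ, 0 ≤ Y ω := by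
  -- positive and negative parts
  set P : α → ℝ := fun ω => max (Y ω) 0 with hP
  set M : α → ℝ := fun ω => max (-Y ω) 0 with hM
  have hPm : Measurable P := hY.max measurable_const
  have hMm : Measurable M := hY.neg.max measurable_const
  have hP0 : ∀ ω, 0 ≤ P ω := fun ω => le_max_right _ _
  have hM0 : ∀ ω, 0 ≤ M ω := fun ω => le_max_right _ _
  have hcase : ∀ ω, (P ω = Y ω ∧ M ω = 0) ∨ (P ω = 0 ∧ M ω = -Y ω) := by
    intro ω
    rcases le_total 0 (Y ω) with h | h
    · left; exact ⟨max_eq_left h, max_eq_right (by linarith)⟩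
    · right; exact ⟨max_eq_right h, max_eq_left (by linarith)⟩
  have e1 : ∀ ω, Y ω = P ω - M ω := fun ω => by
    rcases hcase ω with ⟨h, h'⟩ | ⟨h, h'⟩ <;> rw [h, h'] <;> ring
  have e2 : ∀ ω, Y ω ^ 2 = P ω ^ 2 + M ω ^ 2 := fun ω => by
    rcases hcase ω with ⟨h, h'⟩ | ⟨h, h'⟩ <;> rw [h, h'] <;> ring
  have e3 : ∀ ω, Y ω ^ 3 = P ω ^ 3 - M ω ^ 3 := fun ω => by
    rcases hcase ω with ⟨h, h'⟩ | ⟨h, h'⟩ <;> rw [h, h'] <;> ring
  have hPle : ∀ ω, P ω ≤ |Y ω| := fun ω => max_le (le_abs_self _) (abs_nonneg _)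
  have hMle : ∀ ω, M ω ≤ |Y ω| := fun ω => max_le (neg_le_abs _) (abs_nonneg _)
  have iP : ∀ n : ℕ, Integrable (fun ω => Y ω ^ n) μ → Integrable (fun ω => P ω ^ n) μ := by
    intro n h
    refine h.mono (hPm.pow_const n).aestronglyMeasurable
      (Filter.Eventually.of_forall fun ω => ?_)
    rw [Real.norm_eq_abs, Real.norm_eq_abs, abs_pow, abs_pow, abs_of_nonneg (hP0 ω)]
    exact pow_le_pow_left₀ (hP0 ω) (hPle ω) n
  have iM : ∀ n : ℕ, Integrable (fun ω => Y ω ^ n) μ → Integrable (fun ω => M ω ^ n) μ := by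
    intro n h
    refine h.mono (hMm.pow_const n).aestronglyMeasurable
      (Filter.Eventually.of_forall fun ω => ?_)
    rw [Real.norm_eq_abs, Real.norm_eq_abs, abs_pow, abs_pow, abs_of_nonneg (hM0 ω)]
    exact pow_le_pow_left₀ (hM0 ω) (hMle ω) n
  have h1i' : Integrable (fun ω => Y ω ^ 1) μ := by simpa using h1i
  have p1 := iP 1 h1i'
  have p2 := iP 2 h2i
  have p3 := iP 3 h3i
  have q1 := iM 1 h1i'
  have q2 := iM 2 h2i
  have q3 := iM 3 h3i
  have L0 := layer μ hP0 hPm 0 p1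
  have L1 := layer μ hP0 hPm 1 p2
  have L2 := layer μ hP0 hPm 2 p3
  set G : ℝ → ℝ := fun t => μ.real {ω | t < P ω} with hG
  have hGY : ∀ t, 0 < t → G t = μ.real {ω | t < Y ω} := by
    intro t ht
    simp only [hG]
    congr 1
    ext ω
    simp only [hP, mem_ofPred_eq, lt_max_iff]
    exact ⟨fun h => h.resolve_right (not_lt.2 ht.le), Or.inl⟩
  have B := berwald G (fun t _ => measureReal_nonneg)
    (fun x y hx hy s t hs ht hst => by
      rw [hGY x hx, hGY y hy, hGY (s * x + t * y) (by positivity)]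
      exact hlc x y hx hy s t hs ht hst)
    (by simpa using L0.1) (by simpa using L1.1) (by simpa using L2.1)
  have c0 : ∫ t in Ioi (0 : ℝ), G t = ∫ ω, P ω ∂μ := by simpa using L0.2
  have c1 : ∫ t in Ioi (0 : ℝ), t * G t = (∫ ω, P ω ^ 2 ∂μ) / 2 := by
    have := L1.2
    simp only [pow_one, Nat.cast_one, Nat.reduceAdd] at this
    rw [this]; norm_num
  have c2 : ∫ t in Ioi (0 : ℝ), t ^ 2 * G t = (∫ ω, P ω ^ 3 ∂μ) / 3 := by
    have := L2.2
    simp only [Nat.cast_ofNat, Nat.reduceAdd] at this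
    rw [this]; norm_num
  rw [c0, c1, c2] at B
  have p1' : Integrable P μ := by simpa using p1
  have q1' : Integrable M μ := by simpa using q1
  have d1 : ∫ ω, P ω ∂μ = Z + ∫ ω, M ω ∂μ := by
    have : ∫ ω, Y ω ∂μ = ∫ ω, P ω ∂μ - ∫ ω, M ω ∂μ := by
      rw [← integral_sub p1' q1']; exact integral_congr_ae (Filter.Eventually.of_forall e1)
    linarith
  have d2 : ∫ ω, P ω ^ 2 ∂μ = 2 * Z - ∫ ω, M ω ^ 2 ∂μ := by
    have : ∫ ω, Y ω ^ 2 ∂μ = ∫ ω, P ω ^ 2 ∂μ + ∫ ω, M ω ^ 2 ∂μ := by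
      rw [← integral_add p2 q2]; exact integral_congr_ae (Filter.Eventually.of_forall e2)
    linarith
  have d3 : ∫ ω, P ω ^ 3 ∂μ = 6 * Z + ∫ ω, M ω ^ 3 ∂μ := by
    have : ∫ ω, Y ω ^ 3 ∂μ = ∫ ω, P ω ^ 3 ∂μ - ∫ ω, M ω ^ 3 ∂μ := by
      rw [← integral_sub p3 q3]; exact integral_congr_ae (Filter.Eventually.of_forall e3)
    linarith
  have n1 : 0 ≤ ∫ ω, M ω ∂μ := integral_nonneg hM0
  have n2 : 0 ≤ ∫ ω, M ω ^ 2 ∂μ := integral_nonneg fun ω => sq_nonneg _
  have n3 : 0 ≤ ∫ ω, M ω ^ 3 ∂μ := integral_nonneg fun ω => pow_nonneg (hM0 ω) 3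
  have n4 : 0 ≤ ∫ ω, P ω ^ 2 ∂μ := integral_nonneg fun ω => sq_nonneg _
  have hZ : 0 ≤ Z := by
    have : 0 ≤ ∫ ω, Y ω ^ 2 ∂μ := integral_nonneg fun ω => sq_nonneg _
    linarith
  rw [d1, d2, d3] at B
  rw [d2] at n4
  set a := ∫ ω, M ω ∂μ
  set b := ∫ ω, M ω ^ 2 ∂μ with hb
  set c := ∫ ω, M ω ^ 3 ∂μ
  have hb0 : b = 0 := by
    by_contra hne
    have hbp : 0 < b := lt_of_le_of_ne n2 (Ne.symm hne)
    -- `(Z + a) (2Z + c/3) ≤ 2 (Z - b/2)²`
    have k1 : (Z + a) * ((6 * Z + c) / 3) ≥ 2 * Z ^ 2 := by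
      nlinarith [mul_nonneg n1 hZ, mul_nonneg n1 n3, mul_nonneg hZ n3]
    have k2 : 2 * ((2 * Z - b) / 2) ^ 2 < 2 * Z ^ 2 := by
      have : (2 * Z - b) / 2 < Z := by linarith
      have h0 : 0 ≤ (2 * Z - b) / 2 := by linarith
      nlinarith
    linarith
  have hz : (fun ω => M ω ^ 2) =ᵐ[μ] 0 :=
    (integral_eq_zero_iff_of_nonneg_ae (Filter.Eventually.of_forall fun ω => sq_nonneg _) q2).1 hb0
  filter_upwards [hz] with ω hω
  have : M ω = 0 := by
    have h' : M ω ^ 2 = 0 := hω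
    exact pow_eq_zero_iff (two_ne_zero) |>.1 h'
  have h5 : -Y ω ≤ M ω := le_max_left _ _
  linarith

/-- The tail of a linear functional under a log-concave density is log-concave. -/
theorem tail_logconcave {N : ℕ} {w : (Fin N → ℝ) → ℝ} (hw0 : ∀ x, 0 ≤ w x) (hwm : Measurable w)
    (hwi : Integrable w)
    (hlc : ∀ x y, ∀ s t : ℝ, 0 < s → 0 < t → s + t = 1 →
      w x ^ s * w y ^ t ≤ w (s • x + t • y)) (e : (Fin N → ℝ) →ₗ[ℝ] ℝ)
    (a b s t : ℝ) (hs : 0 < s) (ht : 0 < t) (hst : s + t = 1) :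
    (volume.withDensity fun x => ENNReal.ofReal (w x)).real {x | a < e x} ^ s *
        (volume.withDensity fun x => ENNReal.ofReal (w x)).real {x | b < e x} ^ t ≤
      (volume.withDensity fun x => ENNReal.ofReal (w x)).real {x | s * a + t * b < e x} := by
  have hem : Measurable e := e.continuous_of_finiteDimensional.measurable
  have hS : ∀ c : ℝ, MeasurableSet {x : Fin N → ℝ | c < e x} := fun c =>
    measurableSet_lt measurable_const hem
  have hWm : Measurable fun x => ENNReal.ofReal (w x) := ENNReal.measurable_ofReal.comp hwm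
  set F : ℝ → (Fin N → ℝ) → ℝ≥0∞ := fun c =>
    {x : Fin N → ℝ | c < e x}.indicator fun x => ENNReal.ofReal (w x) with hF
  have hFm : ∀ c, Measurable (F c) := fun c => hWm.indicator (hS c)
  have hFi : ∀ c, ∫⁻ x, F c x = (volume.withDensity fun x => ENNReal.ofReal (w x))
      {x | c < e x} := by
    intro c
    rw [withDensity_apply _ (hS c), hF]
    exact lintegral_indicator (hS c) _
  have hpl := Vale.Agent.P227.pl_pi hs ht hst N (F a) (F b) (F (s * a + t * b)) (hFm a) (hFm b)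
    (hFm _) (by
      intro x y
      by_cases hx : a < e x
      · by_cases hy : b < e y
        · have hxy : s * a + t * b < e (s • x + t • y) := by
            rw [map_add, map_smul, map_smul, smul_eq_mul, smul_eq_mul]
            nlinarith
          simp only [hF, indicator_of_mem (show x ∈ {x : Fin N → ℝ | a < e x} from hx),
            indicator_of_mem (show y ∈ {x : Fin N → ℝ | b < e x} from hy),
            indicator_of_mem (show s • x + t • y ∈ {x : Fin N → ℝ | s * a + t * b < e x}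
              from hxy)]
          rw [ENNReal.ofReal_rpow_of_nonneg (hw0 x) hs.le,
            ENNReal.ofReal_rpow_of_nonneg (hw0 y) ht.le,
            ← ENNReal.ofReal_mul (Real.rpow_nonneg (hw0 x) s)]
          exact ENNReal.ofReal_le_ofReal (hlc x y s t hs ht hst)
        · have : F b y = 0 := indicator_of_notMem (show y ∉ {x : Fin N → ℝ | b < e x} from hy) _
          rw [this, ENNReal.zero_rpow_of_pos ht, mul_zero]
          exact bot_le
      · have : F a x = 0 := indicator_of_notMem (show x ∉ {x : Fin N → ℝ | a < e x} from hx) _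
        rw [this, ENNReal.zero_rpow_of_pos hs, zero_mul]
        exact bot_le)
  rw [hFi, hFi, hFi] at hpl
  have hfin : ∀ S : Set (Fin N → ℝ),
      (volume.withDensity fun x => ENNReal.ofReal (w x)) S ≠ ⊤ := by
    intro S
    have : IsFiniteMeasure (volume.withDensity fun x => ENNReal.ofReal (w x)) :=
      isFiniteMeasure_withDensity_ofReal hwi.2
    exact measure_ne_top _ S
  have := ENNReal.toReal_mono (hfin _) hpl
  rw [ENNReal.toReal_mul, ← ENNReal.toReal_rpow, ← ENNReal.toReal_rpow] at this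
  exact this

/-- **Block B2.** A linear functional with moments `1, 2, 6` (up to the total mass) under a
log-concave density is nonnegative where the density is nonzero, almost everywhere. -/
theorem linear_nonneg {N : ℕ} {w : (Fin N → ℝ) → ℝ} (hw0 : ∀ x, 0 ≤ w x) (hwm : Measurable w)
    (hwi : Integrable w)
    (hlc : ∀ x y, ∀ s t : ℝ, 0 < s → 0 < t → s + t = 1 →
      w x ^ s * w y ^ t ≤ w (s • x + t • y)) (e : (Fin N → ℝ) →ₗ[ℝ] ℝ)
    (h1i : Integrable fun x => e x * w x) (h2i : Integrable fun x => e x ^ 2 * w x)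
    (h3i : Integrable fun x => e x ^ 3 * w x) {Z : ℝ} (h1 : ∫ x, e x * w x = Z)
    (h2 : ∫ x, e x ^ 2 * w x = 2 * Z) (h3 : ∫ x, e x ^ 3 * w x = 6 * Z) :
    ∀ᵐ x, w x ≠ 0 → 0 ≤ e x := by
  have hem : Measurable e := e.continuous_of_finiteDimensional.measurable
  have hWm : Measurable fun x => ENNReal.ofReal (w x) := ENNReal.measurable_ofReal.comp hwm
  set μ := volume.withDensity fun x => ENNReal.ofReal (w x) with hμ
  have hfin : IsFiniteMeasure μ := isFiniteMeasure_withDensity_ofReal hwi.2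
  have hlt : ∀ᵐ x : Fin N → ℝ, ENNReal.ofReal (w x) < ⊤ :=
    Filter.Eventually.of_forall fun x => ENNReal.ofReal_lt_top
  have conv : ∀ g : (Fin N → ℝ) → ℝ, Integrable (fun x => g x * w x) →
      Integrable g μ ∧ ∫ x, g x ∂μ = ∫ x, g x * w x := by
    intro g hg
    have e1 : ∀ x, (ENNReal.ofReal (w x)).toReal • g x = g x * w x := fun x => by
      rw [ENNReal.toReal_ofReal (hw0 x), smul_eq_mul, mul_comm]
    constructor
    · rw [hμ, integrable_withDensity_iff_integrable_smul₀' hWm.aemeasurable hlt]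
      simpa only [e1] using hg
    · rw [hμ, integral_withDensity_eq_integral_toReal_smul₀ hWm.aemeasurable hlt]
      simp only [e1]
  obtain ⟨a1, b1⟩ := conv (fun x => e x) h1i
  obtain ⟨a2, b2⟩ := conv (fun x => e x ^ 2) h2i
  obtain ⟨a3, b3⟩ := conv (fun x => e x ^ 3) h3i
  have key := nonneg_of_moments μ hem
    (fun x y _ _ s t hs ht hst => tail_logconcave hw0 hwm hwi hlc e x y s t hs ht hst)
    a1 a2 a3 (b1.trans h1) (b2.trans h2) (b3.trans h3)
  rw [hμ, ae_withDensity_iff hWm] at key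
  filter_upwards [key] with x hx hne
  exact hx (by simpa using lt_of_le_of_ne (hw0 x) (Ne.symm hne))

end Vale.Agent.P254.H910
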