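import Vale.Agent.P227.PL

/-!
P254 (helper910), block B2, part 1: the moment inequality for log-concave functions on `(0,∞)`:
`(∫ G) (∫ t² G) ≤ 2 (∫ t G)²`.
-/

open MeasureTheory Set

namespace Vale.Agent.P254.H910

/-- integrals of `t^k exp(-b t)` -/
theorem int_exp (k : ℕ) {b : ℝ} (hb : 0 < b) :
    IntegrableOn (fun t : ℝ => t ^ k * Real.exp (-(b * t))) (Ioi 0) ∧
      ∫ t in Ioi (0 : ℝ), t ^ k * Real.exp (-(b * t)) = k.factorial / b ^ (k + 1) := by
  have hk : (-1 : ℝ) < (k : ℝ) := by
    have : (0 : ℝ) ≤ (k : ℝ) := Nat.cast_nonneg k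
    linarith
  have h1 := integrableOn_rpow_mul_exp_neg_mul_rpow (p := 1) (s := (k : ℝ)) (b := b) hk one_pos hb
  have h2 := Real.integral_rpow_mul_exp_neg_mul_Ioi (a := (k : ℝ) + 1) (r := b) (by linarith) hb
  constructor
  · refine h1.congr_fun ?_ measurableSet_Ioi
    intro t _
    simp only [Real.rpow_natCast, Real.rpow_one, neg_mul]
  · have e : ∀ t : ℝ, t ^ ((k : ℝ) + 1 - 1) * Real.exp (-(b * t)) =
        t ^ k * Real.exp (-(b * t)) := by
      intro t
      rw [add_sub_cancel_right, Real.rpow_natCast]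
    simp only [e] at h2
    rw [h2, Real.Gamma_nat_eq_factorial, one_div]
    have e2 : (b⁻¹ : ℝ) ^ ((k : ℝ) + 1) = (b ^ (k + 1))⁻¹ := by
      have : ((k : ℝ) + 1) = ((k + 1 : ℕ) : ℝ) := by push_cast; ring
      rw [this, Real.rpow_natCast, inv_pow]
    rw [e2]
    field_simp

/-- Berwald's inequality for the moments 0, 1, 2 of a log-concave function on `(0,∞)`. -/
theorem berwald (G : ℝ → ℝ) (hG0 : ∀ t, 0 < t → 0 ≤ G t)
    (hlc : ∀ x y, 0 < x → 0 < y → ∀ s t : ℝ, 0 < s → 0 < t → s + t = 1 →
      G x ^ s * G y ^ t ≤ G (s * x + t * y))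
    (h0 : IntegrableOn G (Ioi 0)) (h1 : IntegrableOn (fun t => t * G t) (Ioi 0))
    (h2 : IntegrableOn (fun t => t ^ 2 * G t) (Ioi 0)) :
    (∫ t in Ioi (0 : ℝ), G t) * (∫ t in Ioi (0 : ℝ), t ^ 2 * G t) ≤
      2 * (∫ t in Ioi (0 : ℝ), t * G t) ^ 2 := by
  set m1 := ∫ t in Ioi (0 : ℝ), G t with hm1
  set m2 := ∫ t in Ioi (0 : ℝ), t * G t with hm2
  set m3 := ∫ t in Ioi (0 : ℝ), t ^ 2 * G t with hm3
  have m1n : 0 ≤ m1 := setIntegral_nonneg measurableSet_Ioi fun t ht => hG0 t ht
  have m2n : 0 ≤ m2 := setIntegral_nonneg measurableSet_Ioi fun t ht =>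
    mul_nonneg (le_of_lt ht) (hG0 t ht)
  rcases m1n.eq_or_lt with h | m1p
  · rw [← h, zero_mul]; positivity
  rcases m2n.eq_or_lt with h | m2p
  · -- `t G = 0` almost everywhere
    have hz : (fun t => t * G t) =ᵐ[volume.restrict (Ioi 0)] 0 := by
      refine (integral_eq_zero_iff_of_nonneg_ae ?_ h1).1 h.symm
      filter_upwards [ae_restrict_mem measurableSet_Ioi] with t ht
      exact mul_nonneg (le_of_lt ht) (hG0 t ht)
    have hz2 : m3 = 0 := by
      rw [hm3]
      have : (fun t => t ^ 2 * G t) =ᵐ[volume.restrict (Ioi 0)] 0 := by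
        filter_upwards [hz] with t ht
        have ht' : t * G t = 0 := ht
        show t ^ 2 * G t = 0
        rw [pow_two, mul_assoc, ht', mul_zero]
      rw [integral_congr_ae this]; simp
    rw [hz2, mul_zero]; positivity
  set b := m1 / m2 with hb
  set a := m1 ^ 2 / m2 with ha
  have bp : 0 < b := div_pos m1p m2p
  have ap : 0 < a := by positivity
  set ψ : ℝ → ℝ := fun t => a * Real.exp (-(b * t)) with hψ
  have ψp : ∀ t, 0 < ψ t := fun t => mul_pos ap (Real.exp_pos _)
  have e0 := int_exp 0 bp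
  have e1 := int_exp 1 bp
  have e2 := int_exp 2 bp
  simp only [pow_zero, one_mul, Nat.factorial_zero, Nat.cast_one, zero_add, pow_one] at e0
  simp only [pow_one, Nat.factorial_one, Nat.cast_one] at e1
  have i0 : IntegrableOn ψ (Ioi 0) := e0.1.const_mul a
  have i1 : IntegrableOn (fun t => t * ψ t) (Ioi 0) := by
    have := IntegrableOn.congr_fun (e1.1.const_mul a : IntegrableOn _ _ _)
      (g := fun t => t * ψ t) (fun t _ => by simp only [hψ]; ring) measurableSet_Ioi
    exact this
  have i2 : IntegrableOn (fun t => t ^ 2 * ψ t) (Ioi 0) := by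
    have := IntegrableOn.congr_fun (e2.1.const_mul a : IntegrableOn _ _ _)
      (g := fun t => t ^ 2 * ψ t) (fun t _ => by simp only [hψ]; ring) measurableSet_Ioi
    exact this
  have v0 : ∫ t in Ioi (0 : ℝ), ψ t = m1 := by
    rw [hψ, integral_const_mul, e0.2, ha, hb]; field_simp
  have v1 : ∫ t in Ioi (0 : ℝ), t * ψ t = m2 := by
    have : ∀ t, t * ψ t = a * (t * Real.exp (-(b * t))) := fun t => by simp only [hψ]; ring
    simp only [this]
    rw [integral_const_mul, e1.2, ha, hb]
    field_simp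
    rw [div_pow]
    field_simp
    ring
  have v2 : ∫ t in Ioi (0 : ℝ), t ^ 2 * ψ t = 2 * m2 ^ 2 / m1 := by
    have : ∀ t, t ^ 2 * ψ t = a * (t ^ 2 * Real.exp (-(b * t))) := fun t => by
      simp only [hψ]; ring
    simp only [this]
    rw [integral_const_mul, e2.2, ha, hb]
    simp only [Nat.factorial]
    push_cast
    field_simp
  set h : ℝ → ℝ := fun t => G t - ψ t with hh
  have j0 : IntegrableOn h (Ioi 0) := h0.sub i0
  have j1 : IntegrableOn (fun t => t * h t) (Ioi 0) := by
    refine (h1.sub i1).congr_fun (fun t _ => ?_) measurableSet_Ioi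
    simp only [hh, Pi.sub_apply]; ring
  have j2 : IntegrableOn (fun t => t ^ 2 * h t) (Ioi 0) := by
    refine (h2.sub i2).congr_fun (fun t _ => ?_) measurableSet_Ioi
    simp only [hh, Pi.sub_apply]; ring
  have w0 : ∫ t in Ioi (0 : ℝ), h t = 0 := by
    rw [hh, integral_sub h0 i0, v0]; simp [hm1]
  have w1 : ∫ t in Ioi (0 : ℝ), t * h t = 0 := by
    have : ∀ t, t * h t = t * G t - t * ψ t := fun t => by simp only [hh]; ring
    simp only [this]
    rw [integral_sub h1 i1, v1]; simp [hm2]
  have w2 : ∫ t in Ioi (0 : ℝ), t ^ 2 * h t = m3 - 2 * m2 ^ 2 / m1 := by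
    have : ∀ t, t ^ 2 * h t = t ^ 2 * G t - t ^ 2 * ψ t := fun t => by simp only [hh]; ring
    simp only [this]
    rw [integral_sub h2 i2, v2]
  -- it is enough that the last integral is nonpositive
  suffices hle : ∫ t in Ioi (0 : ℝ), t ^ 2 * h t ≤ 0 by
    rw [w2] at hle
    have : m3 ≤ 2 * m2 ^ 2 / m1 := by linarith
    rw [le_div_iff₀ m1p] at this
    linarith
  set I : Set ℝ := {t | 0 < t ∧ ψ t ≤ G t} with hI
  have hconv : ∀ x ∈ I, ∀ y ∈ I, ∀ z, x < z → z < y → z ∈ I := by
    rintro x ⟨hx0, hx⟩ y ⟨hy0, hy⟩ z hxz hzy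
    refine ⟨hx0.trans hxz, ?_⟩
    have hd : 0 < y - x := by linarith
    set t := (z - x) / (y - x) with ht
    set s := (y - z) / (y - x) with hs
    have htp : 0 < t := div_pos (by linarith) hd
    have hsp : 0 < s := div_pos (by linarith) hd
    have hst : s + t = 1 := by rw [hs, ht]; field_simp; ring
    have hz : s * x + t * y = z := by rw [hs, ht]; field_simp; ring
    have hl := hlc x y hx0 hy0 s t hsp htp hst
    rw [hz] at hl
    refine le_trans ?_ hl
    have l1 : ψ x ^ s * ψ y ^ t ≤ G x ^ s * G y ^ t := by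
      refine mul_le_mul (Real.rpow_le_rpow (ψp x).le hx hsp.le)
        (Real.rpow_le_rpow (ψp y).le hy htp.le) (Real.rpow_nonneg (ψp y).le _)
        (Real.rpow_nonneg (hG0 x hx0) _)
    refine le_trans (le_of_eq ?_) l1
    simp only [hψ]
    rw [Real.mul_rpow ap.le (Real.exp_pos _).le, Real.mul_rpow ap.le (Real.exp_pos _).le,
      ← Real.exp_mul, ← Real.exp_mul]
    have : a ^ s * Real.exp (-(b * x) * s) * (a ^ t * Real.exp (-(b * y) * t)) =
        (a ^ s * a ^ t) * (Real.exp (-(b * x) * s) * Real.exp (-(b * y) * t)) := by ring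
    rw [this, ← Real.rpow_add ap, hst, Real.rpow_one, ← Real.exp_add]
    congr 2
    rw [← hz]; ring
  rcases I.eq_empty_or_nonempty with hemp | hne
  · -- `h < 0` everywhere
    refine setIntegral_nonpos measurableSet_Ioi fun t ht => ?_
    have : ¬ (ψ t ≤ G t) := fun hc => by
      have : t ∈ I := ⟨ht, hc⟩
      rw [hemp] at this; exact this
    push Not at this
    exact mul_nonpos_of_nonneg_of_nonpos (sq_nonneg t) (by simp only [hh]; linarith)
  have hbdd : BddBelow I := ⟨0, fun t ht => ht.1.le⟩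
  set t1 := sInf I with ht1
  have hlt1 : ∀ t, 0 < t → t < t1 → h t < 0 := by
    intro t ht0 htt
    by_contra hc
    push Not at hc
    have : t ∈ I := ⟨ht0, by simp only [hh] at hc; linarith⟩
    exact absurd (csInf_le hbdd this) (not_le.2 htt)
  by_cases hbu : BddAbove I
  · set t2 := sSup I with ht2
    have hgt2 : ∀ t, 0 < t → t2 < t → h t < 0 := by
      intro t ht0 htt
      by_contra hc
      push Not at hc
      have : t ∈ I := ⟨ht0, by simp only [hh] at hc; linarith⟩
      exact absurd (le_csSup hbu this) (not_le.2 htt)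
    have h12 : t1 ≤ t2 := by
      obtain ⟨x, hx⟩ := hne
      exact (csInf_le hbdd hx).trans (le_csSup hbu hx)
    have hmid : ∀ t, t1 < t → t < t2 → 0 ≤ h t := by
      intro t hta htb
      obtain ⟨x, hx, hxt⟩ := exists_lt_of_csInf_lt hne hta
      obtain ⟨y, hy, hty⟩ := exists_lt_of_lt_csSup hne htb
      have := (hconv x hx y hy t hxt hty).2
      simp only [hh]; linarith
    have key : ∫ t in Ioi (0 : ℝ), (t - t1) * (t - t2) * h t ≤ 0 := by
      refine setIntegral_nonpos measurableSet_Ioi fun t ht => ?_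
      have ht0 : 0 < t := ht
      rcases lt_trichotomy t t1 with hc | hc | hc
      · have := hlt1 t ht0 hc
        nlinarith [mul_nonneg (sub_nonneg.2 hc.le) (sub_nonneg.2 (hc.le.trans h12))]
      · rw [hc]; simp
      · rcases lt_trichotomy t t2 with hd | hd | hd
        · have := hmid t hc hd
          nlinarith [mul_nonneg (sub_nonneg.2 hc.le) (sub_nonneg.2 hd.le)]
        · rw [hd]; simp
        · have := hgt2 t ht0 hd
          nlinarith [mul_nonneg (sub_nonneg.2 hc.le) (sub_nonneg.2 hd.le)]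
    have expand : ∫ t in Ioi (0 : ℝ), (t - t1) * (t - t2) * h t =
        ∫ t in Ioi (0 : ℝ), t ^ 2 * h t := by
      have : ∀ t, (t - t1) * (t - t2) * h t =
          t ^ 2 * h t - (t1 + t2) * (t * h t) + t1 * t2 * h t := fun t => by ring
      simp only [this]
      have k1 : IntegrableOn (fun t => (t1 + t2) * (t * h t)) (Ioi 0) := j1.const_mul _
      have k0 : IntegrableOn (fun t => t1 * t2 * h t) (Ioi 0) := j0.const_mul _
      have k2 : IntegrableOn (fun t => t ^ 2 * h t - (t1 + t2) * (t * h t)) (Ioi 0) := j2.sub k1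
      rw [integral_add k2 k0, integral_sub j2 k1, integral_const_mul, integral_const_mul,
        w0, w1]
      simp
    rw [← expand]; exact key
  · -- unbounded case
    have hgt1 : ∀ t, t1 < t → 0 ≤ h t := by
      intro t hta
      obtain ⟨x, hx, hxt⟩ := exists_lt_of_csInf_lt hne hta
      have : ∃ y ∈ I, t < y := by
        by_contra hc
        push Not at hc
        exact hbu ⟨t, fun y hy => hc y hy⟩
      obtain ⟨y, hy, hty⟩ := this
      have := (hconv x hx y hy t hxt hty).2
      simp only [hh]; linarith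
    have hnn : ∀ t, 0 < t → 0 ≤ (t - t1) * h t := by
      intro t ht0
      rcases lt_trichotomy t t1 with hc | hc | hc
      · have := hlt1 t ht0 hc
        nlinarith
      · rw [hc]; simp
      · exact mul_nonneg (sub_nonneg.2 hc.le) (hgt1 t hc)
    have jj : IntegrableOn (fun t => (t - t1) * h t) (Ioi 0) := by
      refine (j1.sub (j0.const_mul t1)).congr_fun (fun t _ => ?_) measurableSet_Ioi
      simp only [Pi.sub_apply]; ring
    have hz : ∫ t in Ioi (0 : ℝ), (t - t1) * h t = 0 := by
      have : ∀ t, (t - t1) * h t = t * h t - t1 * h t := fun t => by ring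
      simp only [this]
      rw [integral_sub j1 (j0.const_mul _), integral_const_mul, w0, w1]; simp
    have hae : (fun t => (t - t1) * h t) =ᵐ[volume.restrict (Ioi 0)] 0 := by
      refine (integral_eq_zero_iff_of_nonneg_ae ?_ jj).1 hz
      filter_upwards [ae_restrict_mem measurableSet_Ioi] with t ht
      exact hnn t ht
    have hne1 : ∀ᵐ t ∂(volume.restrict (Ioi (0 : ℝ))), t ≠ t1 :=
      ae_restrict_of_ae (Measure.ae_ne volume t1)
    have : (fun t => t ^ 2 * h t) =ᵐ[volume.restrict (Ioi 0)] 0 := by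
      filter_upwards [hae, hne1] with t ht hne
      have ht' : (t - t1) * h t = 0 := ht
      rcases mul_eq_zero.1 ht' with hc | hc
      · exact absurd (sub_eq_zero.1 hc) hne
      · show t ^ 2 * h t = 0
        rw [hc, mul_zero]
    rw [integral_congr_ae this]; simp

end Vale.Agent.P254.H910
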